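import Vale.Agent.P025.R2.H544.Dec

/-!
# P025 G-PATCH : abstract patching, everything proved (helper544)

`Defs` (definitions), `Fact` ((2.1), (2.2) finite), `Glue` ((2.2) algebraic, (2.3)-(2.5)),
`Points` (points, reducedness, CRT, lying over), `Gal`, `Dec` ((2.6)).
-/
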