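import Vale.Agent.P025.R2.H544.Patch

/-!
# P025 G-PATCH : the former sorried spec is now the proved file `Patch.lean` (same names)
-/
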